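import Vale.Agent.P027.H434.Main
import Vale.Agent.P027.H434.Sub

namespace Vale.Agent.Results.P027.SubringForms

/-- Parts 1-4 are the theorem `P027.NormalForms`, word for word.
Part 5. For every recursively enumerable set `S` of `k`-tuples of integers there is a polynomial
`F` over the integers such that, for all nonzero rationals `α i` with three-adic valuations `a i`:
if `a ∈ S` then the set of rationals `t` for which `F (α, t, y) = 0` has no rational solution `y`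
meets every open interval and contains arbitrarily large natural numbers; if `a ∉ S` then for
every rational `t` the equation has a solution in integers `y`.
Part 6. The normal form of part 2 holds, with the same polynomials, in every subring `R` of the
rationals, all unknowns in `R`.
Part 7. There are one polynomial `F` over the integers and one set `A` of natural numbers, the
complement of a recursively enumerable set to which the complement of every recursively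
enumerable set is many-one reducible, so that, for all subrings `R` of the rationals and all sets
`D` of rationals that contain all rationals of a nonempty open interval or all large natural
numbers, `a ∈ A` if and only if `F (a, t, y) = 0` has a solution `y` in `R` for all `t` in `D`,
and if and only if this holds for all but finitely many `t` in `D`. -/
theorem result : ((∀ (k : ℕ) (S : Set (Fin k → ℤ)), REPred (fun a => a ∈ S) →
    (∃ (m : ℕ) (F : MvPolynomial (Fin k ⊕ Fin (m + 1)) ℤ), ∀ (α : Fin k → ℚ) (a : Fin k → ℤ),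
      (∀ i, α i ≠ 0 ∧ padicValRat 3 (α i) = a i) →
      (a ∈ S → {t : ℤ | ∀ y : Fin m → ℚ,
        MvPolynomial.aeval (Sum.elim α (Matrix.vecCons (t : ℚ) y)) F ≠ 0}.Infinite) ∧
      (a ∉ S → ∀ t : ℚ, ∃ y : Fin m → ℚ,
        MvPolynomial.aeval (Sum.elim α (Matrix.vecCons t y)) F = 0)) ∧
    ∃ (r m : ℕ) (G : MvPolynomial (Fin k ⊕ Fin (r + 1)) ℤ)
      (F : MvPolynomial (Fin k ⊕ (Fin (r + 1) ⊕ Fin (m + 1))) ℤ),
      ∀ (α : Fin k → ℚ) (a : Fin k → ℤ), (∀ i, α i ≠ 0 ∧ padicValRat 3 (α i) = a i) →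
        (a ∈ S ↔ ∃ z : Fin (r + 1) → ℚ, z 0 ≠ 0 ∧ MvPolynomial.aeval (Sum.elim α z) G = 0 ∧
          ∀ p : ℕ, p.Prime → (p : ℤ) ∣ (z 0).num → ∃ y : Fin m → ℚ,
            MvPolynomial.aeval (Sum.elim α (Sum.elim z (Matrix.vecCons (p : ℚ) y))) F = 0)) ∧
    (∃ (m : ℕ) (F : MvPolynomial (Fin (m + 2)) ℤ),
      ∀ D : Set ℚ, (∀ z : ℤ, (z : ℚ) ∈ D) →
        (¬ REPred (fun a : ℕ => ∀ t ∈ D, ∃ y : Fin m → ℚ,
          MvPolynomial.aeval (Matrix.vecCons (a : ℚ) (Matrix.vecCons t y)) F = 0)) ∧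
        ¬ REPred (fun a : ℕ => {t ∈ D | ∀ y : Fin m → ℚ,
          MvPolynomial.aeval (Matrix.vecCons (a : ℚ) (Matrix.vecCons t y)) F ≠ 0}.Finite)) ∧
    ∀ K : ℕ, 1 ≤ K →
      (∃ (m : ℕ) (g : MvPolynomial (Fin 1 ⊕ Fin m) ℤ)
        (L : List ((Fin 1 ⊕ Fin m) × (Fin 1 ⊕ Fin m))), ∀ R : ℚ → ℚ → Prop,
        (∀ x y : ℚ, (max x.num.natAbs x.den ≤ max y.num.natAbs y.den → R x y) ∧
          (R x y → max x.num.natAbs x.den ≤ K * max y.num.natAbs y.den)) →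
        ∀ x : Fin 1 → ℚ, ((∃ z : ℤ, x 0 = z) ↔
          ∃ y : Fin m → ℚ, MvPolynomial.aeval (Sum.elim x y) g = 0 ∧
            ∀ ij ∈ L, R (Sum.elim x y ij.1) (Sum.elim x y ij.2))) ∧
      ∀ (n : ℕ) (S : Set (Fin n → ℕ)), REPred (fun a => a ∈ S) →
        ∃ (m : ℕ) (g : MvPolynomial (Fin n ⊕ Fin m) ℤ)
          (L : List ((Fin n ⊕ Fin m) × (Fin n ⊕ Fin m))), ∀ R : ℚ → ℚ → Prop,
          (∀ x y : ℚ, (max x.num.natAbs x.den ≤ max y.num.natAbs y.den → R x y) ∧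
            (R x y → max x.num.natAbs x.den ≤ K * max y.num.natAbs y.den)) →
          ∀ x : Fin n → ℚ, ((∃ a : Fin n → ℕ, a ∈ S ∧ ∀ i, x i = a i) ↔
            ∃ y : Fin m → ℚ, MvPolynomial.aeval (Sum.elim x y) g = 0 ∧
              ∀ ij ∈ L, R (Sum.elim x y ij.1) (Sum.elim x y ij.2))) ∧
    (∀ (k : ℕ) (S : Set (Fin k → ℤ)), REPred (fun a => a ∈ S) →
      ∃ (m : ℕ) (F : MvPolynomial (Fin k ⊕ Fin (m + 1)) ℤ), ∀ (α : Fin k → ℚ) (a : Fin k → ℤ),
        (∀ i, α i ≠ 0 ∧ padicValRat 3 (α i) = a i) →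
        (a ∈ S → (∀ c d : ℚ, c < d → ∃ t : ℚ, c < t ∧ t < d ∧ ∀ y : Fin m → ℚ,
            MvPolynomial.aeval (Sum.elim α (Matrix.vecCons t y)) F ≠ 0) ∧
          ∀ N : ℕ, ∃ t : ℕ, N ≤ t ∧ ∀ y : Fin m → ℚ,
            MvPolynomial.aeval (Sum.elim α (Matrix.vecCons (t : ℚ) y)) F ≠ 0) ∧
        (a ∉ S → ∀ t : ℚ, ∃ y : Fin m → ℤ,
          MvPolynomial.aeval (Sum.elim α (Matrix.vecCons t (fun i => (y i : ℚ)))) F = 0)) ∧
    (∀ (k : ℕ) (S : Set (Fin k → ℤ)), REPred (fun a => a ∈ S) →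
      ∃ (r m : ℕ) (G : MvPolynomial (Fin k ⊕ Fin (r + 1)) ℤ)
        (F : MvPolynomial (Fin k ⊕ (Fin (r + 1) ⊕ Fin (m + 1))) ℤ),
        ∀ (R : Subring ℚ) (α : Fin k → ℚ) (a : Fin k → ℤ),
          (∀ i, α i ≠ 0 ∧ padicValRat 3 (α i) = a i) →
          (a ∈ S ↔ ∃ z : Fin (r + 1) → ℚ, (∀ i, z i ∈ R) ∧ z 0 ≠ 0 ∧
            MvPolynomial.aeval (Sum.elim α z) G = 0 ∧
            ∀ p : ℕ, p.Prime → (p : ℤ) ∣ (z 0).num → ∃ y : Fin m → ℚ, (∀ i, y i ∈ R) ∧
              MvPolynomial.aeval (Sum.elim α (Sum.elim z (Matrix.vecCons (p : ℚ) y))) F = 0)) ∧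
    ∃ (m : ℕ) (F : MvPolynomial (Fin (m + 2)) ℤ) (A : Set ℕ),
      REPred (fun a => a ∉ A) ∧ ¬ REPred (fun a => a ∈ A) ∧
      (∀ B : Set ℕ, REPred (fun n => n ∉ B) →
        ∃ f : ℕ → ℕ, Computable f ∧ ∀ n, (n ∈ B ↔ f n ∈ A)) ∧
      ∀ (R : Subring ℚ) (D : Set ℚ), ((∃ c d : ℚ, c < d ∧ ∀ t : ℚ, c < t → t < d → t ∈ D) ∨
          ∃ N : ℕ, ∀ n : ℕ, N ≤ n → (n : ℚ) ∈ D) → ∀ a : ℕ,
        (a ∈ A ↔ ∀ t ∈ D, ∃ y : Fin m → ℚ, (∀ i, y i ∈ R) ∧
          MvPolynomial.aeval (Matrix.vecCons (a : ℚ) (Matrix.vecCons t y)) F = 0) ∧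
        (a ∈ A ↔ {t ∈ D | ∀ y : Fin m → ℚ, (∀ i, y i ∈ R) →
          MvPolynomial.aeval (Matrix.vecCons (a : ℚ) (Matrix.vecCons t y)) F ≠ 0}.Finite) :=
  ⟨⟨fun k S hS => ⟨Vale.Agent.P027.K2.dprm_one hS, Vale.Agent.P027.N1.normal_form k S hS⟩,
      Vale.Agent.P027.N1.undec_one,
      fun K hK => ⟨Vale.Agent.P027.HT.final_int K hK,
        fun n S hS => Vale.Agent.P027.HT.final K hK n S hS⟩⟩,
    fun _ _ hS => Vale.Agent.P027.H434.dense_form hS,
    fun k S hS => Vale.Agent.P027.H434.normal_sub k S hS,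
    Vale.Agent.P027.H434.one_set⟩

end Vale.Agent.Results.P027.SubringForms
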